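import Mathlib

/-!
Row 186, explicit part: the tables of the seed algebra.
-/

set_option autoImplicit false

namespace Crest.Agent.R186.Ex

/-- The entry `(a, b, l, e)` says that `b_a * b_b` contains `q ^ e • b_l`. -/
def MULT : List (ℕ × ℕ × ℕ × ℕ) :=
  [(0, 0, 0, 0), (0, 2, 2, 0), (0, 3, 3, 0), (0, 4, 4, 0), (0, 5, 5, 0), (0, 6, 6, 0),
   (0, 10, 10, 0), (0, 12, 12, 0), (0, 13, 13, 0), (0, 14, 14, 0), (0, 17, 17, 0),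
   (0, 18, 18, 0), (1, 1, 1, 0), (1, 7, 7, 0), (1, 8, 8, 0), (1, 9, 9, 0), (1, 11, 11, 0),
   (1, 15, 15, 0), (1, 16, 16, 0), (1, 19, 19, 0), (2, 0, 2, 0), (2, 3, 4, 1), (2, 5, 6, 1),
   (2, 12, 10, 0), (2, 14, 13, 0), (2, 18, 17, 0), (3, 0, 3, 0), (3, 2, 4, 0), (3, 5, 6, 0),
   (3, 13, 10, 0), (3, 14, 12, 1), (3, 18, 17, 1), (4, 0, 4, 0), (4, 14, 10, 0), (5, 1, 5, 0),
   (5, 7, 2, 0), (5, 7, 3, 0), (5, 8, 4, 0), (5, 9, 6, 0), (5, 9, 6, 1), (5, 15, 10, 0),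
   (5, 16, 12, 1), (5, 16, 13, 0), (5, 19, 17, 0), (6, 1, 6, 0), (6, 7, 4, 0), (6, 16, 10, 0),
   (7, 0, 7, 0), (7, 2, 8, 0), (7, 3, 8, 1), (7, 5, 9, 0), (7, 12, 15, 0), (7, 13, 15, 0),
   (7, 14, 16, 0), (7, 17, 11, 0), (7, 18, 19, 0), (7, 18, 19, 1), (8, 0, 8, 0), (8, 14, 15, 0),
   (8, 18, 11, 0), (9, 1, 9, 0), (9, 7, 8, 0), (9, 7, 8, 1), (9, 16, 15, 0), (9, 16, 15, 1),
   (9, 19, 11, 0), (10, 0, 10, 0), (11, 1, 11, 0), (12, 0, 12, 0), (12, 2, 10, 0),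
   (12, 5, 17, 0), (13, 0, 13, 0), (13, 3, 10, 0), (13, 5, 17, 0), (14, 0, 14, 0),
   (14, 2, 13, 1), (14, 3, 12, 0), (14, 4, 10, 0), (14, 5, 18, 0), (14, 6, 17, 0),
   (15, 0, 15, 0), (15, 5, 11, 0), (16, 0, 16, 0), (16, 2, 15, 1), (16, 3, 15, 0),
   (16, 5, 19, 0), (16, 5, 19, 1), (16, 6, 11, 0), (17, 1, 17, 0), (17, 7, 10, 0),
   (18, 1, 18, 0), (18, 7, 12, 0), (18, 7, 13, 1), (18, 8, 10, 0), (18, 9, 17, 0),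
   (18, 9, 17, 1), (19, 1, 19, 0), (19, 7, 15, 0), (19, 9, 11, 0)]

/-- Part of the table of the cocycle. -/
def TAU0 : List (ℕ × ℕ × ℕ × ℕ × ℕ) :=
  [(2, 3, 17, 6, 1), (2, 3, 18, 5, 1), (2, 4, 18, 6, 1), (3, 2, 17, 6, 2), (3, 2, 18, 5, 2),
   (3, 4, 18, 6, 2), (3, 5, 11, 6, 0), (3, 5, 11, 6, 2), (3, 5, 19, 5, 0), (3, 5, 19, 5, 1),
   (3, 6, 19, 6, 0), (3, 6, 19, 6, 1), (3, 10, 5, 6, 0), (3, 10, 5, 6, 2), (3, 13, 4, 4, 0),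
   (3, 13, 4, 4, 2), (3, 13, 5, 5, 0), (3, 13, 5, 5, 2), (3, 13, 6, 6, 0), (3, 13, 6, 6, 2),
   (3, 14, 4, 3, 0), (3, 14, 4, 3, 2), (3, 17, 7, 3, 0), (3, 17, 7, 3, 2), (3, 17, 16, 12, 1),
   (3, 17, 16, 12, 3), (3, 17, 19, 17, 1), (3, 17, 19, 17, 2), (3, 18, 7, 0, 1),
   (3, 18, 7, 0, 3), (3, 18, 8, 3, 0), (3, 18, 8, 3, 2), (3, 18, 11, 17, 1), (3, 18, 11, 17, 3),
   (3, 18, 15, 12, 1), (3, 18, 15, 12, 3), (3, 18, 16, 14, 1), (3, 18, 16, 14, 3),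
   (3, 18, 19, 18, 1), (3, 18, 19, 18, 2), (4, 2, 18, 6, 2), (4, 3, 18, 6, 1), (4, 5, 19, 6, 1),
   (4, 12, 5, 6, 0), (4, 13, 5, 6, 2), (4, 14, 4, 4, 0), (4, 14, 4, 4, 2), (4, 14, 5, 5, 0),
   (4, 14, 6, 6, 0), (4, 17, 7, 4, 2), (4, 17, 16, 10, 2), (4, 18, 7, 2, 2), (4, 18, 7, 3, 0),
   (4, 18, 8, 4, 2), (4, 18, 15, 10, 2), (4, 18, 16, 12, 1), (4, 18, 16, 13, 2),
   (4, 18, 19, 17, 1), (5, 8, 17, 6, 0), (5, 8, 18, 5, 0), (5, 11, 7, 2, 0), (5, 11, 7, 2, 2),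
   (5, 11, 16, 13, 0), (5, 11, 16, 13, 2), (5, 11, 19, 17, 0), (5, 11, 19, 17, 1),
   (5, 15, 4, 4, 2), (5, 16, 4, 2, 0), (5, 16, 4, 3, 2), (5, 19, 7, 0, 1)]

/-- Part of the table of the cocycle. -/
def TAU1 : List (ℕ × ℕ × ℕ × ℕ × ℕ) :=
  [(5, 19, 7, 0, 2), (5, 19, 8, 2, 0), (5, 19, 8, 2, 1), (5, 19, 11, 17, 1), (5, 19, 11, 17, 2),
   (5, 19, 15, 12, 1), (5, 19, 15, 12, 2), (5, 19, 16, 14, 1), (5, 19, 16, 14, 2),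
   (5, 19, 19, 18, 1), (6, 7, 17, 6, 0), (6, 7, 18, 5, 0), (6, 16, 4, 4, 2), (6, 19, 7, 2, 0),
   (6, 19, 7, 2, 1), (6, 19, 15, 10, 0), (6, 19, 15, 10, 1), (6, 19, 16, 13, 0),
   (6, 19, 16, 13, 1), (6, 19, 19, 17, 0), (7, 2, 17, 9, 0), (7, 2, 17, 9, 1), (7, 2, 18, 1, 0),
   (7, 2, 18, 1, 2), (7, 4, 18, 9, 1), (7, 5, 11, 9, 0), (7, 5, 11, 9, 1), (7, 5, 19, 1, 0),
   (7, 5, 19, 1, 1), (7, 6, 19, 9, 0), (7, 10, 5, 9, 0), (7, 10, 5, 9, 1), (7, 12, 4, 8, 2),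
   (7, 13, 4, 8, 0), (7, 13, 5, 1, 0), (7, 13, 5, 1, 2), (7, 13, 6, 9, 0), (7, 13, 6, 9, 1),
   (7, 14, 4, 7, 0), (7, 17, 7, 7, 0), (7, 17, 7, 7, 2), (7, 17, 11, 11, 0), (7, 17, 11, 11, 2),
   (7, 17, 16, 16, 0), (7, 17, 16, 16, 2), (7, 17, 19, 19, 0), (7, 17, 19, 19, 2),
   (7, 18, 8, 7, 0), (7, 18, 8, 7, 2), (8, 2, 18, 9, 0), (8, 2, 18, 9, 1), (8, 5, 19, 9, 0),
   (8, 13, 5, 9, 0), (8, 13, 5, 9, 1), (8, 14, 4, 8, 0), (8, 17, 7, 8, 0), (8, 17, 7, 8, 2),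
   (8, 17, 16, 15, 0), (8, 17, 16, 15, 2), (8, 17, 19, 11, 0), (8, 17, 19, 11, 1),
   (8, 18, 8, 8, 0), (8, 18, 8, 8, 2), (8, 18, 15, 15, 0), (8, 18, 15, 15, 2),
   (9, 19, 15, 15, 0), (9, 19, 15, 15, 2), (10, 2, 3, 4, 1), (10, 2, 3, 4, 3), (10, 2, 5, 6, 1)]

/-- Part of the table of the cocycle. -/
def TAU2 : List (ℕ × ℕ × ℕ × ℕ × ℕ) :=
  [(10, 2, 5, 6, 3), (10, 3, 13, 10, 0), (10, 3, 13, 10, 2), (10, 4, 14, 10, 0),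
   (10, 4, 14, 10, 2), (10, 5, 7, 2, 0), (10, 5, 7, 2, 2), (10, 5, 15, 10, 0),
   (10, 5, 15, 10, 2), (10, 5, 16, 13, 0), (10, 5, 16, 13, 2), (10, 5, 19, 17, 0),
   (10, 5, 19, 17, 1), (10, 6, 16, 10, 0), (10, 6, 16, 10, 2), (10, 12, 2, 10, 0),
   (10, 12, 2, 10, 2), (11, 7, 3, 8, 1), (11, 7, 3, 8, 3), (11, 7, 5, 9, 1), (11, 7, 5, 9, 2),
   (11, 7, 12, 15, 0), (11, 7, 12, 15, 2), (11, 8, 18, 11, 0), (11, 8, 18, 11, 2),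
   (11, 9, 19, 11, 0), (11, 9, 19, 11, 2), (11, 15, 5, 11, 0), (11, 15, 5, 11, 2),
   (11, 16, 3, 15, 0), (11, 16, 3, 15, 2), (11, 19, 7, 15, 0), (11, 19, 7, 15, 1),
   (12, 2, 3, 3, 0), (12, 2, 3, 3, 2), (12, 2, 4, 4, 0), (12, 2, 4, 4, 2), (12, 2, 5, 5, 0),
   (12, 2, 5, 5, 2), (12, 2, 6, 6, 0), (12, 2, 6, 6, 2), (12, 3, 13, 12, 0), (12, 3, 13, 12, 2),
   (12, 4, 14, 12, 0), (12, 4, 14, 12, 2), (12, 4, 18, 17, 2), (12, 5, 7, 0, 0),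
   (12, 5, 7, 0, 2), (12, 5, 11, 17, 0), (12, 5, 11, 17, 2), (12, 5, 15, 12, 0),
   (12, 5, 15, 12, 2), (12, 5, 16, 14, 0), (12, 5, 16, 14, 2), (12, 5, 19, 18, 0),
   (12, 5, 19, 18, 1), (12, 6, 16, 12, 0), (12, 6, 16, 12, 2), (12, 6, 19, 17, 0),
   (12, 6, 19, 17, 1), (12, 10, 2, 10, 0), (12, 10, 2, 10, 2), (12, 12, 2, 12, 0),
   (12, 12, 2, 12, 2), (13, 3, 2, 2, 0), (13, 3, 2, 2, 2), (13, 3, 10, 10, 0),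
   (13, 3, 10, 10, 2), (13, 3, 13, 13, 0), (13, 3, 13, 13, 2)]

/-- Part of the table of the cocycle. -/
def TAU3 : List (ℕ × ℕ × ℕ × ℕ × ℕ) :=
  [(13, 4, 18, 17, 0), (13, 12, 2, 13, 0), (13, 12, 2, 13, 2), (14, 3, 2, 0, 0),
   (14, 3, 2, 0, 2), (14, 3, 10, 12, 0), (14, 3, 10, 12, 2), (14, 3, 13, 14, 0),
   (14, 3, 13, 14, 2), (14, 4, 2, 2, 0), (14, 4, 2, 2, 2), (14, 4, 10, 10, 0),
   (14, 4, 10, 10, 2), (14, 4, 13, 13, 0), (14, 4, 13, 13, 2), (14, 4, 17, 17, 0),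
   (14, 4, 18, 18, 0), (14, 10, 2, 13, 1), (14, 10, 2, 13, 3), (14, 12, 2, 14, 0),
   (14, 12, 2, 14, 2), (15, 2, 3, 8, 1), (15, 2, 5, 9, 1), (15, 2, 5, 9, 2), (15, 3, 2, 8, 2),
   (15, 3, 13, 15, 0), (15, 3, 13, 15, 2), (15, 4, 14, 15, 0), (15, 5, 8, 8, 2),
   (15, 5, 15, 15, 0), (15, 5, 15, 15, 2), (15, 6, 7, 8, 2), (15, 6, 16, 15, 0),
   (15, 6, 16, 15, 2), (15, 6, 19, 11, 0), (15, 6, 19, 11, 1), (15, 12, 2, 15, 0),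
   (15, 12, 2, 15, 2), (16, 2, 3, 7, 1), (16, 2, 4, 8, 1), (16, 2, 5, 1, 1), (16, 2, 5, 1, 3),
   (16, 2, 6, 9, 1), (16, 2, 6, 9, 2), (16, 3, 2, 7, 2), (16, 3, 4, 8, 2), (16, 3, 10, 15, 0),
   (16, 3, 10, 15, 2), (16, 3, 13, 16, 0), (16, 3, 13, 16, 2), (16, 4, 2, 8, 2),
   (16, 4, 3, 8, 1), (16, 4, 5, 9, 1), (16, 4, 12, 15, 0), (16, 4, 13, 15, 2),
   (16, 4, 14, 16, 0), (16, 5, 8, 7, 2), (16, 6, 7, 7, 2), (16, 6, 11, 11, 0),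
   (16, 6, 11, 11, 2), (16, 6, 16, 16, 0), (16, 6, 16, 16, 2), (16, 6, 19, 19, 0),
   (16, 6, 19, 19, 2), (16, 10, 2, 15, 1), (16, 10, 2, 15, 3), (16, 12, 2, 16, 0),
   (16, 12, 2, 16, 2), (17, 7, 2, 2, 0), (17, 7, 2, 2, 2)]

/-- Part of the table of the cocycle. -/
def TAU4 : List (ℕ × ℕ × ℕ × ℕ × ℕ) :=
  [(17, 7, 10, 10, 0), (17, 7, 10, 10, 2), (17, 7, 13, 13, 0), (17, 7, 13, 13, 2),
   (17, 16, 2, 13, 1), (17, 16, 2, 13, 3), (17, 16, 4, 10, 2), (17, 19, 7, 13, 1),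
   (17, 19, 7, 13, 2), (18, 7, 2, 0, 0), (18, 7, 2, 0, 2), (18, 7, 10, 12, 0),
   (18, 7, 10, 12, 2), (18, 7, 13, 14, 0), (18, 7, 13, 14, 2), (18, 8, 2, 2, 0),
   (18, 8, 2, 2, 2), (18, 8, 10, 10, 0), (18, 8, 10, 10, 2), (18, 8, 13, 13, 0),
   (18, 8, 13, 13, 2), (18, 11, 7, 13, 1), (18, 11, 7, 13, 3), (18, 15, 2, 13, 1),
   (18, 15, 2, 13, 3), (18, 15, 4, 10, 2), (18, 16, 2, 14, 1), (18, 16, 2, 14, 3),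
   (18, 16, 4, 12, 2), (18, 16, 4, 13, 1), (18, 19, 7, 14, 1), (18, 19, 7, 14, 2),
   (18, 19, 8, 13, 1), (18, 19, 8, 13, 2), (19, 7, 3, 7, 1), (19, 7, 3, 7, 2), (19, 7, 4, 8, 1),
   (19, 7, 5, 1, 1), (19, 7, 5, 1, 2), (19, 7, 6, 9, 1), (19, 7, 10, 15, 0), (19, 7, 10, 15, 1),
   (19, 7, 13, 16, 0), (19, 7, 13, 16, 1), (19, 8, 3, 8, 1), (19, 8, 3, 8, 2), (19, 8, 5, 9, 1),
   (19, 8, 12, 15, 0), (19, 8, 12, 15, 1), (19, 8, 14, 16, 0), (19, 8, 14, 16, 1),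
   (19, 8, 17, 11, 0), (19, 8, 17, 11, 1), (19, 8, 18, 19, 0), (19, 8, 18, 19, 2),
   (19, 9, 11, 11, 0), (19, 9, 11, 11, 2), (19, 9, 16, 16, 0), (19, 9, 16, 16, 2),
   (19, 9, 19, 19, 0), (19, 9, 19, 19, 2), (19, 11, 7, 15, 1), (19, 11, 7, 15, 2),
   (19, 15, 2, 15, 1), (19, 15, 2, 15, 2), (19, 16, 2, 16, 1), (19, 16, 2, 16, 2),
   (19, 16, 4, 15, 1), (19, 19, 7, 16, 1), (19, 19, 8, 15, 1)]

/-- The entry `(a, b, c, l, e)` says that `τ(b_a, b_b, b_c)` contains `q ^ e • b_l`. -/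
def TAU : List (ℕ × ℕ × ℕ × ℕ × ℕ) := TAU0 ++ TAU1 ++ TAU2 ++ TAU3 ++ TAU4

/-- Generic element number 0: the coordinates are coded by primes. -/
def gen0 : List (ℕ × ℕ) :=
  [(5, 0), (7, 1), (11, 2), (13, 3), (17, 4), (19, 5), (23, 6), (29, 7), (31, 8), (37, 9),
   (41, 10), (43, 11), (47, 12), (53, 13), (59, 14), (61, 15), (67, 16), (71, 17), (73, 18),
   (79, 19)]

/-- Generic element number 1: the coordinates are coded by primes. -/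
def gen1 : List (ℕ × ℕ) :=
  [(83, 0), (89, 1), (97, 2), (101, 3), (103, 4), (107, 5), (109, 6), (113, 7), (127, 8),
   (131, 9), (137, 10), (139, 11), (149, 12), (151, 13), (157, 14), (163, 15), (167, 16),
   (173, 17), (179, 18), (181, 19)]

/-- Generic element number 2: the coordinates are coded by primes. -/
def gen2 : List (ℕ × ℕ) :=
  [(191, 0), (193, 1), (197, 2), (199, 3), (211, 4), (223, 5), (227, 6), (229, 7), (233, 8),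
   (239, 9), (241, 10), (251, 11), (257, 12), (263, 13), (269, 14), (271, 15), (277, 16),
   (281, 17), (283, 18), (293, 19)]

/-- Generic element number 3: the coordinates are coded by primes. -/
def gen3 : List (ℕ × ℕ) :=
  [(307, 0), (311, 1), (313, 2), (317, 3), (331, 4), (337, 5), (347, 6), (349, 7), (353, 8),
   (359, 9), (367, 10), (373, 11), (379, 12), (383, 13), (389, 14), (397, 15), (401, 16),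
   (409, 17), (419, 18), (421, 19)]

/-- The primes coding the coordinates. -/
def PR : List ℕ :=
  [5, 7, 11, 13, 17, 19, 23, 29, 31, 37, 41, 43, 47, 53, 59, 61, 67, 71, 73, 79,
   83, 89, 97, 101, 103, 107, 109, 113, 127, 131, 137, 139, 149, 151, 157, 163, 167, 173, 179, 181,
   191, 193, 197, 199, 211, 223, 227, 229, 233, 239, 241, 251, 257, 263, 269, 271, 277, 281, 283, 293,
   307, 311, 313, 317, 331, 337, 347, 349, 353, 359, 367, 373, 379, 383, 389, 397, 401, 409, 419, 421]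

end Crest.Agent.R186.Ex
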